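import Vale.Agent.P215.LP.Defs
import Vale.Agent.P215.TV.Start

/-!
# P215: capped gropes with local pointers are null
-/

noncomputable section

namespace Vale.Agent.P215.LP

open Vale.Agent.P215.H788 Vale.Agent.P215.H579 Vale.Agent.P215.Am Vale.Agent.P215.Am.Start
  Vale.Agent.P215.TV Set Topology

variable {Γ : Type} [Group Γ] {G : CappedGrope} {g : Fin G.plumbings.length → Γ}

/-- The darts of the system `S` lie over the sides of the double points. -/
structure Sd (g : Fin G.plumbings.length → Γ) (S : LabSys Γ)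
    (sd : S.K → Fin G.plumbings.length × Bool) : Prop where
  flip : ∀ k, sd (S.flip k) = ((sd k).1, !(sd k).2)
  t : ∀ k, S.t k = (lab G g (sd k).1 (sd k).2)⁻¹
  leg : ∀ k, legOf (tipOf G (sd k).1 (sd k).2) = S.leg k
  br : ∀ f : Fin 3 → S.K, (∀ l l', S.vert (f l) = S.vert (f l')) → (∀ l, S.leg (f l) = l) →
    ∃ j i : ℕ, tipOf G (sd (f 0)).1 (sd (f 0)).2 = (0, j, true) ∧
      tipOf G (sd (f 1)).1 (sd (f 1)).2 = (j + 1, i, false) ∧
      tipOf G (sd (f 2)).1 (sd (f 2)).2 = (j + 1, i, true)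

theorem Sd.remove {S : LabSys Γ} {sd : S.K → Fin G.plumbings.length × Bool} (h : Sd g S sd)
    (v : S.V) : Sd g (S.remove v) (fun k => sd k.1) where
  flip k := h.flip k.1
  t k := h.t k.1
  leg k := h.leg k.1
  br f h1 h2 := h.br (fun l => (f l).1) (fun l l' => congrArg Subtype.val (h1 l l')) h2

theorem Sd.split {S : LabSys Γ} {sd : S.K → Fin G.plumbings.length × Bool} (h : Sd g S sd)
    (i : Fin 3) : Sd g (S.split i) (fun k => sd k.1.1) where
  flip k := h.flip k.1.1
  t k := h.t k.1.1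
  leg k := h.leg k.1.1
  br f h1 h2 := by
    refine h.br (fun l => (f l).1.1) (fun l l' => ?_) h2
    have e1 : (f l).1.2.1 = (f l').1.2.1 := congrArg Subtype.val (h1 l l')
    have f0 : S.vert (f l).1.2.1 = S.vert (f l).1.1 := (f l).2.1.2.1
    have f1 : S.vert (f l').1.2.1 = S.vert (f l').1.1 := (f l').2.1.2.1
    rw [← f0, ← f1, e1]

/-- Changing the types of the darts of a 3-port graph. -/
def mapPort {T T' : Types Γ} (P : Port T) (s : T.K → T'.K) (hl : ∀ k, T'.leg (s k) = T.leg k)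
    (hf : ∀ k, s (T.flip k) = T'.flip (s k)) : Port T' where
  X := P.X
  dart x l := s (P.dart x l)
  leg_dart x l := by rw [hl, P.leg_dart]
  nb := P.nb
  dart_nb x l := by
    rw [← hf, hl, P.dart_nb]
  nb_nb x l := by
    rw [← hf, hl, P.nb_nb]

section Map

variable {T T' : Types Γ} {P : Port T} {s : T.K → T'.K} {hl : ∀ k, T'.leg (s k) = T.leg k}
  {hf : ∀ k, s (T.flip k) = T'.flip (s k)}

theorem mapPort_bk (x : P.X) (l : Fin 3) : (mapPort P s hl hf).bk x l = P.bk x l := by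
  change T'.leg (T'.flip (s (P.dart x l))) = T.leg (T.flip (P.dart x l))
  rw [← hf, hl]

theorem mapPort_agree {n : ℕ} {x y : P.X} (h : P.Agree n x y) :
    (mapPort P s hl hf).Agree n x y := by
  induction n generalizing x y with
  | zero => trivial
  | succ n ih => exact fun l => ⟨congrArg s (h l).1, ih (h l).2⟩

theorem mapPort_wEnd (x : P.X) (u : List (Fin 3)) :
    (mapPort P s hl hf).wEnd x u = P.wEnd x u := by
  induction u generalizing x with
  | nil => rfl
  | cons l u ih => exact ih _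

theorem mapPort_wVal (ht : ∀ k, T'.t (s k) = T.t k) (x : P.X) (u : List (Fin 3)) :
    (mapPort P s hl hf).wVal x u = P.wVal x u := by
  induction u generalizing x with
  | nil => rfl
  | cons l u ih =>
    change T'.t (s (P.dart x l)) * _ = T.t (P.dart x l) * _
    rw [ht]
    congr 1
    exact ih _

theorem mapPort_red (x : P.X) (u : List (Fin 3)) :
    (mapPort P s hl hf).Red x u ↔ P.Red x u := by
  induction u generalizing x with
  | nil => exact Iff.rfl
  | cons l u ih =>
    cases u with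
    | nil => exact Iff.rfl
    | cons l' u =>
      refine Port.red_cons_cons.trans (Iff.trans ?_ Port.red_cons_cons.symm)
      refine and_congr ?_ (ih _)
      rw [show (mapPort P s hl hf).bk x l = P.bk x l from mapPort_bk x l]

theorem mapPort_far (ht : ∀ k, T'.t (s k) = T.t k) {M : ℕ} {x : P.X} (h : P.Far M x) :
    (mapPort P s hl hf).Far M x := by
  intro u hu hul w hw hr hwl
  rw [mapPort_wEnd] at hr ⊢
  rw [mapPort_wVal ht]
  exact h u ((mapPort_red _ _).1 hu) hul w hw ((mapPort_red _ _).1 hr) hwl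

end Map

/-- **The combinatorial theorem.** -/
theorem comb_of_pointers (hg : HasPointers G g) (R₁ R₂ : LabSys Γ → Prop)
    (hrem : ∀ S v l, R₁ S → (∀ k, S.vert k = v → S.leg k ≠ l) → R₁ (S.remove v))
    (hsplit : ∀ S i, R₁ S → S.Full → R₁ (S.split i))
    (h12 : ∀ S, R₁ S → R₂ S)
    (hpush : ∀ S u a b, a ≠ b → ∀ (ha : S.NoSelf u a) (hb : S.NoSelf u b), R₂ S →
      ∃ n, R₂ (S.push u a b n ha hb))
    (S₀ : LabSys Γ) (h₀ : R₁ S₀) (hs : ∃ sd, Sd g S₀ sd) : ∃ S, R₂ S ∧ S.Final := by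
  obtain ⟨S₁, ⟨h₁, sd, hs₁⟩, hf⟩ := exists_full (R := fun S => R₁ S ∧ ∃ sd, Sd g S sd)
    (fun S v l h hv => ⟨hrem S v l h.1 hv, by
      obtain ⟨sd, hs⟩ := h.2
      exact ⟨_, hs.remove v⟩⟩) S₀ ⟨h₀, hs⟩
  let W := Tower.ofSys S₁ hf
  let s : W.types.K → (sides G g).K := sd
  have hl : ∀ k, (sides G g).leg (s k) = W.types.leg k := hs₁.leg
  have hfl : ∀ k, s (W.types.flip k) = (sides G g).flip (s k) := hs₁.flip
  have ht : ∀ k, (sides G g).t (s k) = W.types.t k := fun k => (hs₁.t k).symm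
  obtain ⟨M, c, hloc, hc⟩ := hg (mapPort W.port s hl hfl) (by
    intro x
    have hv : ∀ l, S₁.vert (W.port.dart x l) = x.1 0 := fun l => W.dt_vert x l 0
    have hl' : ∀ l, S₁.leg (W.port.dart x l) = l := fun l => W.dt_leg x l 0
    exact hs₁.br (fun l => W.port.dart x l) (fun l l' => by rw [hv, hv]) hl')
  have hloc' : W.port.Loc M c := fun x y h => hloc x y (mapPort_agree h)
  obtain ⟨n, st, hst, hne, hrel⟩ := W.port.exists_rule M c ⟨M, hloc'⟩ (by
    intro x l h1 h2 h3
    have h4 := hc x (mapPort_far ht h1.far) (mapPort_far ht (by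
      change W.port.Far M (W.port.nb x (c x))
      rw [h3]
      exact h2.far))
    rw [mapPort_bk] at h4
    change c (W.port.nb x (c x)) ≠ W.port.bk x (c x) at h4
    rwa [h3] at h4)
  obtain ⟨st', hadm⟩ := W.exists_adm hst hne hrel
  exact LabSys.exists_final hpush _ (h12 _ (Tower.ofSys_mem hsplit S₁ hf h₁ n)) st' hadm

/-- The initial system with its sides. -/
theorem exists_start_sd (T : ThetaDatum G.L) {L : Fin 3 → Q → Q} (hL : IsLegs L) {M : ℕ}
    (hM : 2 * G.plumbings.length ≤ M)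
    (A : ∀ j : Fin G.genera.length, StartSplit T.leg T.sq M L ix0
      (fun k : Fin (G.genera.get j) => T.sq false k))
    (φ : FundamentalGroup G.Thickening G.basePt →* Γ) :
    ∃ S : LabSys Γ, RzSep G.attach (Coc.ofHom φ) L S ∧
      ∃ sd, Sd (fun k => φ (loop G k (pathP T k) (pathQ T k))) S sd := by
  have hF := isReal_init T
  have hh := isFam_holeSq G
  have hbox : ∀ x p, (initDarts T).box x p = initBox T x p := fun _ _ => rfl
  obtain ⟨t₀, ht₀, he⟩ : ∃ t₀ : DI G → Γ, IsLabel (Coc.ofHom φ) (initDarts T) (initMap T) t₀ ∧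
      ∀ x, t₀ x = (lab G (fun k => φ (loop G k (pathP T k) (pathQ T k))) x.1 x.2)⁻¹ :=
    ⟨_, exists_labels T φ, fun _ => rfl⟩
  refine ⟨startSys hM hL hh A hbox t₀ ht₀.flip, ⟨startPos hM hL hh A hbox t₀ ht₀.flip,
    initMap T ∘ ψT A, isSep_startPos hM hL hh A hbox t₀ ht₀.flip, ?_, ?_⟩, ?_⟩
  · have h := (startPB hM hL hh A hbox).isReal hF
    exact ⟨h.cont, h.boundary, h.glue, h.inj⟩
  · exact (startPB hM hL hh A hbox).isLabel hF ht₀
  · refine ⟨fun k => (k.1.1.1.1.1, k.1.1.1.1.2), ?_, ?_, ?_, ?_⟩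
    · intro k
      have h : k.1.2.1.1 = (k.1.1.1.1.1, !k.1.1.1.1.2) := k.2
      change (k.1.2.1.1.1, k.1.2.1.1.2) = _
      rw [h]
    · intro k
      exact he _
    · intro k
      change legOf (tipOf G k.1.1.1.1.1 k.1.1.1.1.2) = lno ix0 (dtip k.1.1.1.1)
      rw [dtip_eq]
      unfold legOf lno ix0
      rfl
    · intro f h1 h2
      have h3 : ∀ l l', (f l).1.1.1.2 = (f l').1.1.1.2 := fun l l' => h1 l l'
      have g0 := tip_of_leg0 (f 0).1.1.2 (h2 0)
      have g1 := tip_of_leg (f 1).1.1.2 (b := false) (h2 1)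
      have g2 := tip_of_leg (f 2).1.1.2 (b := true) (h2 2)
      rw [h3 1 0] at g1
      rw [h3 2 0] at g2
      exact ⟨_, _, g0, g1, g2⟩

/-- **Capped gropes with local pointers are null.** -/
theorem exists_null (G : CappedGrope) :
    ∃ (p : ∀ k, Path (base0 G) (sheet G k false)) (q : ∀ k, Path (sheet G k true) (base0 G)),
      ∀ (Γ : Type) [Group Γ] (φ : FundamentalGroup G.Thickening G.basePt →* Γ),
        HasPointers G (fun k => φ (loop G k (p k) (q k))) → Null G φ := by
  obtain ⟨T, ⟨A⟩⟩ := exists_splits G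
  refine ⟨pathP T, pathQ T, ?_⟩
  intro Γ _ φ hg
  obtain ⟨S₀, h₀, hs⟩ := exists_start_sd T T0.isLegs (by unfold nSq; omega) A φ
  have hL := threeLegData
  obtain ⟨S, hS1, hS2⟩ := comb_of_pointers hg (RzSep G.attach (Coc.ofHom φ) T0.L)
    (Rz G.attach (Coc.ofHom φ) T0.L)
    (fun S v l h hv => h.remove v (hL.contract l).some hv)
    (fun S i h hf => h.split i (fun D _ q h1 h2 h3 => hL.split i D q h1 h2 h3) hf)
    (fun S h => h.rz)
    (fun S u a b hab ha hb h =>
      ⟨_, Rz.push hab (hL.push a b hab).some ha hb h⟩)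
    S₀ h₀ hs
  exact hS1.final (fun i => (hL.contract i).some) φ hS2

end Vale.Agent.P215.LP
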