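import Vale.Agent.P215.TV.Defs
import Vale.Agent.P215.Am.Walk

/-!
# P215: local pointers on 3-port graphs

A 3-port graph is a cubic graph whose vertices have legs numbered 0, 1, 2; the end of each edge at a
vertex has a type.  For a capped grope the types are the sides of its double points, the legs are the
three caps of a branch, and the labels are the values on the double point loops or their inverses.
-/

namespace Vale.Agent.P215.LP

open Vale.Agent.P215.H788 Vale.Agent.P215.Am Vale.Agent.P215.TV

/-- The number of a cap on its branches: the caps dual to the second stage surfaces are the legs
number 0, the caps at the first and at the second tip of a second stage handle are the legs number 1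
and number 2. -/
def legOf (t : Tip) : Fin 3 := if t.1 = 0 then 0 else if t.2.2 then 2 else 1

section

variable (G : CappedGrope) {Γ : Type} [Group Γ]

/-- The sides `(k, b)` of the double points of `G` as types of darts: `(k, b)` is a dart on the leg
of the cap at the side `b` of the double point number `k`, the opposite dart is the other side, and
the label is the inverse of the label of the side. -/
def sides (g : Fin G.plumbings.length → Γ) : Types Γ where
  K := Fin G.plumbings.length × Bool
  fK := inferInstance
  dK := inferInstance
  leg k := legOf (tipOf G k.1 k.2)
  flip k := (k.1, !k.2)
  flip_flip k := Prod.ext rfl (Bool.not_not k.2)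
  flip_ne k h := Bool.not_ne_self k.2 (congrArg Prod.snd h)
  t k := (lab G g k.1 k.2)⁻¹
  t_flip k := by
    obtain ⟨k, b⟩ := k
    cases b <;> simp [lab]

variable {G} in
/-- The three darts at each vertex are sides of double points on the three caps of one branch. -/
def OverBranches {g : Fin G.plumbings.length → Γ} (P : Port (sides G g)) : Prop :=
  ∀ x, ∃ j i : ℕ, tipOf G (P.dart x 0).1 (P.dart x 0).2 = (0, j, true) ∧
    tipOf G (P.dart x 1).1 (P.dart x 1).2 = (j + 1, i, false) ∧
    tipOf G (P.dart x 2).1 (P.dart x 2).2 = (j + 1, i, true)

/-- A **local pointer** of radius `M` on a 3-port graph: each vertex `x` chooses one of its legs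
`c x`, which depends only on the types of the darts on the walks of length at most `M` from `x`, such
that two neighbours which are both far from the closed walks of length at most `M` do not choose the
same edge. -/
def IsPointer {T : Types Γ} (P : Port T) (M : ℕ) (c : P.X → Fin 3) : Prop :=
  P.Loc M c ∧ ∀ x, P.Far M x → P.Far M (P.nb x (c x)) → c (P.nb x (c x)) ≠ P.bk x (c x)

/-- Each 3-port graph whose darts are the sides of the double points of `G`, labelled by `g`, has a
local pointer. -/
def HasPointers (g : Fin G.plumbings.length → Γ) : Prop :=
  ∀ P : Port (sides G g), OverBranches P → ∃ M c, IsPointer P M c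

end

end Vale.Agent.P215.LP
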