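import Vale.Agent.P215.LP.Walk

/-!
# P215: labels with small growth
-/

noncomputable section

namespace Vale.Agent.P215.LP

open Vale.Agent.P215.H788 Vale.Agent.P215.Am Vale.Agent.P215.TV Set
open scoped Pointwise

variable {Γ : Type} [Group Γ] {T : Types Γ} {P : Port T}

theorem wVal_mem_pow {S : Set Γ} (hS : ∀ k, T.t k ∈ S) (x : P.X) (u : List (Fin 3)) :
    P.wVal x u ∈ S ^ u.length := by
  induction u generalizing x with
  | nil => simp
  | cons l u ih =>
    rw [Port.wVal_cons, List.length_cons, pow_succ']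
    exact Set.mul_mem_mul (hS _) (ih _)

/-- The number of products of `n + 1` labels is at least the number of reduced walks of length
`n + 1` from a far vertex. -/
theorem le_encard_pow {S : Set Γ} (hS : ∀ k, T.t k ∈ S) {n : ℕ} {x : P.X}
    (h : P.Far (2 * (n + 1)) x) : 3 * 2 ^ n ≤ (S ^ (n + 1)).encard := by
  let f : Fin 3 × (Fin n → Bool) → Γ := fun q => P.wVal x (P.turns x q.1 (List.ofFn q.2))
  have hf : Function.Injective f := by
    intro q q' hq
    have h1 := h.wVal_inj (n := n + 1) le_rfl (Port.red_turns x q.1 _) (Port.red_turns x q'.1 _)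
      (by rw [Port.length_turns, List.length_ofFn]) (by rw [Port.length_turns, List.length_ofFn])
      hq
    obtain ⟨h2, h3⟩ := Port.turns_inj (by rw [List.length_ofFn, List.length_ofFn]) h1
    exact Prod.ext h2 (List.ofFn_injective h3)
  have hr : Set.range f ⊆ S ^ (n + 1) := by
    rintro _ ⟨q, rfl⟩
    have h1 := wVal_mem_pow hS x (P.turns x q.1 (List.ofFn q.2))
    rwa [Port.length_turns, List.length_ofFn] at h1
  have hc : (Set.range f).encard = 3 * 2 ^ n := by
    rw [← Set.image_univ, hf.injOn.encard_image, Set.encard_univ]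
    simp [ENat.card_eq_coe_fintype_card]
  rw [← hc]
  exact Set.encard_le_encard hr

/-- A rule for a graph without far vertices. -/
theorem exists_pointer_of_not_far {M : ℕ} (h : ∀ x, ¬ P.Far M x) : ∃ M c, IsPointer P M c :=
  ⟨M, fun _ => 0, fun _ _ _ => rfl, fun x hx => (h x hx).elim⟩

variable {G : CappedGrope}

theorem hasPointers_growth {g : Fin G.plumbings.length → Γ} {S : Set Γ}
    (hS : ∀ k, g k ∈ S ∧ (g k)⁻¹ ∈ S) {n : ℕ} (hn : (S ^ (n + 1)).encard < 3 * 2 ^ n) :
    HasPointers G g := by
  intro P _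
  refine exists_pointer_of_not_far (M := 2 * (n + 1)) fun x hx => ?_
  refine absurd (le_encard_pow (S := S) ?_ hx) (not_le.2 hn)
  rintro ⟨k, b⟩
  change (lab G g k b)⁻¹ ∈ S
  unfold lab
  cases b
  · exact (hS k).2
  · simpa using (hS k).1

end Vale.Agent.P215.LP
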