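import Vale.Agent.P215.LP.Growth

/-!
# P215: three involutions with a relation
-/

noncomputable section

namespace Vale.Agent.P215.LP

open Vale.Agent.P215.H788 Vale.Agent.P215.Am Vale.Agent.P215.TV Set

variable {Γ : Type} [Group Γ]

section

variable {T : Types Γ} {P : Port T} {a : Fin 3 → Γ}

/-- The labels of the darts at a far vertex are the three involutions. -/
theorem exists_leg (ht : ∀ k, T.t k = 1 ∨ ∃ i, T.t k = a i) {x : P.X} (hx : P.Far 2 x) :
    Function.Injective a ∧ ∀ i, ∃ l, P.lab x l = a i := by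
  have h1 : ∀ l, ∃ i, P.lab x l = a i := fun l => (ht _).resolve_left (hx.ne_one (by norm_num) l)
  choose e he using h1
  have h2 : Function.Injective e := by
    intro l l' h
    by_contra hl
    refine hx.ne_of_ne le_rfl hl ?_
    change P.lab x l = P.lab x l'
    rw [he, he, h]
  have h3 : Function.Surjective e := Finite.injective_iff_surjective.1 h2
  refine ⟨?_, fun i => ?_⟩
  · intro i j h
    obtain ⟨l, rfl⟩ := h3 i
    obtain ⟨l', rfl⟩ := h3 j
    by_contra hl
    have hl' : l ≠ l' := fun h => hl (congrArg e h)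
    refine hx.ne_of_ne le_rfl hl' ?_
    change P.lab x l = P.lab x l'
    rw [he, he, h]
  · obtain ⟨l, rfl⟩ := h3 i
    exact ⟨l, he l⟩

theorem exists_walk (ht : ∀ k, T.t k = 1 ∨ ∃ i, T.t k = a i) (ha : ∀ i, a i * a i = 1)
    (w : List (Fin 3)) (hw : w.IsChain (· ≠ ·)) {x : P.X} (hx : P.Far (w.length + 2) x) :
    ∃ u : List (Fin 3), u.length = w.length ∧ P.Red x u ∧ P.wVal x u = (w.map a).prod ∧
      ∀ i ∈ w.head?, ∀ l ∈ u.head?, P.lab x l = a i := by
  induction w generalizing x with
  | nil => exact ⟨[], rfl, trivial, rfl, by simp⟩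
  | cons i w ih =>
    obtain ⟨hinj, hleg⟩ := exists_leg ht (hx.mono (m := 2) (by omega))
    obtain ⟨l, hl⟩ := hleg i
    have hx' : P.Far (w.length + 2 + 1) x := by
      simpa [Nat.add_right_comm] using hx
    obtain ⟨u, hu1, hu2, hu3, hu4⟩ := ih hw.tail (hx'.nb l)
    refine ⟨l :: u, by simp [hu1], ?_, by simp [hu3, hl], ?_⟩
    · cases u with
      | nil => trivial
      | cons l' u =>
        refine ⟨?_, hu2⟩
        rintro rfl
        cases w with
        | nil => simp at hu1
        | cons j w =>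
          have h1 := hu4 j (by simp) (P.bk x l) (by simp)
          rw [Port.lab_bk, hl, inv_eq_of_mul_eq_one_right (ha i)] at h1
          have h2 : i = j := hinj h1
          exact (List.isChain_cons_cons.1 hw).1 h2
    · simp only [List.head?_cons, Option.mem_def, Option.some.injEq]
      rintro _ rfl _ rfl
      exact hl

theorem not_far_invol (ht : ∀ k, T.t k = 1 ∨ ∃ i, T.t k = a i) (ha : ∀ i, a i * a i = 1)
    {w : List (Fin 3)} (hw : w.IsChain (· ≠ ·)) (hn : w ≠ []) (h1 : (w.map a).prod = 1)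
    (x : P.X) : ¬ P.Far (w.length + 2) x := by
  intro hx
  obtain ⟨u, hu1, hu2, hu3, -⟩ := exists_walk ht ha w hw hx
  refine hx [] trivial (Nat.zero_le _) u ?_ hu2 (by omega) (hu3.trans h1)
  rintro rfl
  exact hn (List.length_eq_zero_iff.1 hu1.symm)

end

variable {G : CappedGrope}

theorem hasPointers_invol {g : Fin G.plumbings.length → Γ} (a : Fin 3 → Γ)
    (ha : ∀ i, a i * a i = 1) (w : List (Fin 3)) (hw : w.IsChain (· ≠ ·)) (hn : w ≠ [])
    (h1 : (w.map a).prod = 1) (hg : ∀ k, g k = 1 ∨ ∃ i, g k = a i) : HasPointers G g := by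
  intro P _
  refine exists_pointer_of_not_far fun x => not_far_invol (a := a) ?_ ha hw hn h1 x
  rintro ⟨k, s⟩
  change (lab G g k s)⁻¹ = 1 ∨ ∃ i, (lab G g k s)⁻¹ = a i
  have h2 : ∀ i, (a i)⁻¹ = a i := fun i => inv_eq_of_mul_eq_one_right (ha i)
  unfold lab
  rcases hg k with h | ⟨i, h⟩
  · left
    cases s <;> simp [h]
  · right
    refine ⟨i, ?_⟩
    cases s <;> simp [h, h2]

end Vale.Agent.P215.LP
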