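import Vale.Agent.P215.TV.Ext

/-!
# P215: labels in a set of growth rate less than two, modulo an amenable normal subgroup
-/

noncomputable section

namespace Vale.Agent.P215.LP

open Vale.Agent.P215.H788 Vale.Agent.P215.Am Vale.Agent.P215.TV Set Topology
open scoped Pointwise

/-! ### Mixtures of finite sets -/

section

variable {Q : Type} [Group Q]

/-- A finite family of finite sets as one finite set in a product. -/
theorem exists_mixture {ι : Type} [Fintype ι] (B : ι → Finset Q) :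
    ∃ F : Finset (Q × Multiplicative ℤ), F.card = ∑ i, (B i).card ∧
      ∀ g : Q, overlap F (g, 1) = ∑ i, overlap (B i) g := by
  classical
  let e : ι → Multiplicative ℤ := fun i => Multiplicative.ofAdd ((Fintype.equivFin ι i : ℕ) : ℤ)
  have he : Function.Injective e := by
    intro i j h
    have h1 : ((Fintype.equivFin ι i : ℕ) : ℤ) = ((Fintype.equivFin ι j : ℕ) : ℤ) :=
      Multiplicative.ofAdd.injective h
    exact (Fintype.equivFin ι).injective (Fin.ext (by exact_mod_cast h1))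
  let f : (Σ _ : ι, Q) → Q × Multiplicative ℤ := fun x => (x.2, e x.1)
  have hf : Function.Injective f := by
    rintro ⟨i, q⟩ ⟨j, q'⟩ h
    rw [Prod.mk.injEq] at h
    obtain ⟨h1, h2⟩ := h
    have h3 := he h2
    simp only at h1 h3
    subst h1 h3
    rfl
  have hmem : ∀ i q, (q, e i) ∈ (Finset.univ.sigma B).image f ↔ q ∈ B i := by
    intro i q
    rw [Finset.mem_image]
    constructor
    · rintro ⟨⟨j, q'⟩, h1, h2⟩
      have h3 := hf (a₁ := ⟨j, q'⟩) (a₂ := ⟨i, q⟩) h2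
      rw [Sigma.mk.injEq] at h3
      obtain ⟨rfl, h4⟩ := h3
      rw [heq_eq_eq] at h4
      subst h4
      exact (Finset.mem_sigma.1 h1).2
    · intro h
      exact ⟨⟨i, q⟩, Finset.mem_sigma.2 ⟨Finset.mem_univ _, h⟩, rfl⟩
  refine ⟨(Finset.univ.sigma B).image f, ?_, ?_⟩
  · rw [Finset.card_image_of_injective _ hf, Finset.card_sigma]
  · intro g
    simp only [overlap_eq]
    rw [← Finset.card_sigma]
    refine (Finset.card_bij (fun x _ => f x) ?_ ?_ ?_).symm
    · rintro ⟨i, q⟩ h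
      rw [Finset.mem_sigma, Finset.mem_filter] at h
      rw [Finset.mem_filter]
      refine ⟨(hmem i q).2 h.2.1, ?_⟩
      have h1 : f ⟨i, q⟩ * (g, 1) = (q * g, e i) := Prod.ext rfl (mul_one _)
      rw [h1]
      exact (hmem i _).2 h.2.2
    · intro x _ y _ h
      exact hf h
    · intro y h
      rw [Finset.mem_filter, Finset.mem_image] at h
      obtain ⟨⟨⟨i, q⟩, h1, rfl⟩, h2⟩ := h
      refine ⟨⟨i, q⟩, ?_, rfl⟩
      have h3 : f ⟨i, q⟩ * (g, 1) = (q * g, e i) := Prod.ext rfl (mul_one _)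
      rw [h3, hmem] at h2
      rw [Finset.mem_sigma, Finset.mem_filter]
      exact ⟨Finset.mem_univ _, (Finset.mem_sigma.1 h1).2, h2⟩

/-- The main inequality: `B` and `B'` are consecutive balls. -/
theorem two_mul_card_le {B B' : Finset Q} {g : Q} (h0 : B ⊆ B') (h1 : ∀ f ∈ B, f * g ∈ B')
    (h2 : ∀ f ∈ B, f * g⁻¹ ∈ B') : 2 * B.card ≤ overlap B g + overlap B' g := by
  classical
  have h3 : (B ∪ B.image fun f => f * g⁻¹) ⊆ B'.filter fun f => f * g ∈ B' := by
    intro f hf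
    rw [Finset.mem_filter]
    rcases Finset.mem_union.1 hf with hf | hf
    · exact ⟨h0 hf, h1 f hf⟩
    · obtain ⟨f', hf', rfl⟩ := Finset.mem_image.1 hf
      exact ⟨h2 f' hf', by simpa using h0 hf'⟩
  have h4 : (B ∩ B.image fun f => f * g⁻¹) ⊆ B.filter fun f => f * g ∈ B := by
    intro f hf
    rw [Finset.mem_inter] at hf
    rw [Finset.mem_filter]
    obtain ⟨f', hf', rfl⟩ := Finset.mem_image.1 hf.2
    exact ⟨hf.1, by simpa using hf'⟩
  have h5 := Finset.card_le_card h3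
  have h6 := Finset.card_le_card h4
  have h7 := Finset.card_union_add_card_inter B (B.image fun f => f * g⁻¹)
  have h8 : (B.image fun f => f * g⁻¹).card = B.card :=
    Finset.card_image_of_injective _ (mul_left_injective g⁻¹)
  rw [overlap_eq, overlap_eq]
  omega

theorem overlap_le_card (B : Finset Q) (g : Q) : overlap B g ≤ B.card := by
  classical
  rw [overlap_eq]
  exact Finset.card_filter_le _ _

/-- The weighted sum. -/
theorem weighted (o b : ℕ → ℝ) (θ : ℝ) (hθ : 0 < θ) (h : ∀ n, 2 * b n ≤ o n + o (n + 1))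
    (M : ℕ) :
    2 * θ * ∑ n ∈ Finset.range M, θ ^ n * b n + o 0 ≤
      θ * ∑ n ∈ Finset.range M, θ ^ n * o n + ∑ n ∈ Finset.range (M + 1), θ ^ n * o n := by
  induction M with
  | zero => simp
  | succ M ih =>
    rw [Finset.sum_range_succ, Finset.sum_range_succ (fun n => θ ^ n * o n) (M + 1),
      Finset.sum_range_succ (fun n => θ ^ n * o n) M] at *
    have h1 : θ ^ (M + 1) * (2 * b M) ≤ θ ^ (M + 1) * (o M + o (M + 1)) :=
      mul_le_mul_of_nonneg_left (h M) (pow_pos hθ _).le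
    rw [pow_succ] at h1 ⊢
    nlinarith

/-- A rational number slightly larger than one half. -/
theorem exists_ratio {n b : ℕ} (h : b < 2 ^ n) :
    ∃ p q : ℕ, 0 < p ∧ 0 < q ∧ q < 2 * p ∧ p < q ∧ ((p : ℝ) / q) ^ n * b < 1 := by
  have h1 : ((1 / 2 : ℝ)) ^ n * b < 1 := by
    rw [one_div, inv_pow, ← div_eq_inv_mul, div_lt_one (by positivity)]
    exact_mod_cast h
  have h2 : IsOpen {x : ℝ | x ^ n * b < 1} :=
    isOpen_lt (by fun_prop) continuous_const
  obtain ⟨ε, hε, h3⟩ := Metric.isOpen_iff.1 h2 (1 / 2) h1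
  obtain ⟨θ, h4, h5⟩ := exists_rat_btwn (show (1 / 2 : ℝ) < min (1 / 2 + ε) 1 from
    lt_min (by linarith) (by norm_num))
  obtain ⟨h6, h7⟩ := lt_min_iff.1 h5
  have h8 : (θ : ℝ) ∈ {x : ℝ | x ^ n * b < 1} := by
    refine h3 ?_
    rw [Metric.mem_ball, Real.dist_eq, abs_lt]
    constructor <;> linarith
  have h9 : (0 : ℚ) < θ := by
    have : (0 : ℝ) < θ := by linarith
    exact_mod_cast this
  have h10 : 0 < θ.num := Rat.num_pos.2 h9
  have hq : (0 : ℝ) < θ.den := Nat.cast_pos.2 θ.den_pos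
  have h11 : ((θ.num.toNat : ℝ) / θ.den) = θ := by
    have h12 : ((θ.num.toNat : ℝ)) = ((θ.num : ℤ) : ℝ) := by
      have : ((θ.num.toNat : ℤ)) = θ.num := Int.toNat_of_nonneg h10.le
      exact_mod_cast congrArg (fun z : ℤ => (z : ℝ)) this
    rw [h12]
    exact_mod_cast congrArg (fun z : ℚ => (z : ℝ)) (Rat.num_div_den θ)
  refine ⟨θ.num.toNat, θ.den, by omega, θ.den_pos, ?_, ?_, ?_⟩
  · have h12 : (1 / 2 : ℝ) < (θ.num.toNat : ℝ) / θ.den := by rw [h11]; exact h4
    rw [lt_div_iff₀ hq] at h12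
    have h13 : ((θ.den : ℕ) : ℝ) < 2 * (θ.num.toNat : ℝ) := by linarith
    exact_mod_cast h13
  · have h12 : (θ.num.toNat : ℝ) / θ.den < 1 := by rw [h11]; exact h7
    rw [div_lt_one hq] at h12
    exact_mod_cast h12
  · rw [h11]
    exact h8

/-- A set with growth rate less than two has small boundaries, on average. -/
theorem exists_set_of_growth [DecidableEq Q] (S : Finset Q) (h1 : (1 : Q) ∈ S) {n : ℕ}
    (hn : (S ^ n).card < 2 ^ n) :
    ∃ F : Finset (Q × Multiplicative ℤ), F.Nonempty ∧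
      ∀ g, g ∈ S → g⁻¹ ∈ S → 2 * F.card < 3 * overlap F (g, 1) := by
  obtain ⟨p, q, hp, hq, hpq, hpq', hb⟩ := exists_ratio hn
  have hq0 : (0 : ℝ) < q := Nat.cast_pos.2 hq
  have hp0 : (0 : ℝ) < p := Nat.cast_pos.2 hp
  have hθ : (0 : ℝ) < (p : ℝ) / q := div_pos hp0 hq0
  have hθ1 : (1 / 2 : ℝ) < (p : ℝ) / q := by
    rw [lt_div_iff₀ hq0]
    have : ((q : ℕ) : ℝ) < 2 * (p : ℝ) := by exact_mod_cast hpq
    linarith
  have hθ2 : (p : ℝ) / q < 1 := by
    rw [div_lt_one hq0]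
    exact_mod_cast hpq'
  -- the radius
  obtain ⟨k, hk⟩ := exists_pow_lt_of_lt_one
    (show (0 : ℝ) < (2 * ((p : ℝ) / q) - 1) / (1 + (p : ℝ) / q) from
      div_pos (by linarith) (by linarith)) hb
  have hk0 : k ≠ 0 := by
    rintro rfl
    rw [pow_zero, lt_div_iff₀ (by linarith)] at hk
    linarith
  have hn0 : n ≠ 0 := by
    rintro rfl
    simp at hn
  have hM : n * k ≠ 0 := mul_ne_zero hn0 hk0
  have hcard : ((S ^ (n * k)).card : ℝ) ≤ ((S ^ n).card : ℝ) ^ k := by
    rw [pow_mul]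
    exact_mod_cast Finset.card_pow_le
  have hsmall : (1 + (p : ℝ) / q) * (((p : ℝ) / q) ^ (n * k) * (S ^ (n * k)).card) <
      2 * ((p : ℝ) / q) - 1 := by
    have h2 : ((p : ℝ) / q) ^ (n * k) * (S ^ (n * k)).card ≤
        (((p : ℝ) / q) ^ n * (S ^ n).card) ^ k := by
      rw [mul_pow, ← pow_mul]
      exact mul_le_mul_of_nonneg_left hcard (pow_pos hθ _).le
    have h3 := lt_of_le_of_lt h2 hk
    rw [lt_div_iff₀ (by linarith)] at h3
    linarith
  generalize hMdef : n * k = M at hM hsmall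
  -- the sets
  obtain ⟨F, hF1, hF2⟩ := exists_mixture (ι := Σ m : Fin (M + 1), Fin (p ^ (m : ℕ) * q ^ (M - m)))
    fun i => S ^ (i.1 : ℕ)
  have key : ∀ f : ℕ → ℕ, ((∑ i : (Σ m : Fin (M + 1), Fin (p ^ (m : ℕ) * q ^ (M - m))),
      f i.1 : ℕ) : ℝ) = (q : ℝ) ^ M * ∑ m ∈ Finset.range (M + 1), ((p : ℝ) / q) ^ m * f m := by
    intro f
    rw [Fintype.sum_sigma, Nat.cast_sum, Finset.mul_sum, Finset.sum_range]
    refine Finset.sum_congr rfl fun m _ => ?_
    simp only [Finset.sum_const, Finset.card_univ, Fintype.card_fin, smul_eq_mul]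
    push_cast
    have h2 : (q : ℝ) ^ M = (q : ℝ) ^ (m : ℕ) * (q : ℝ) ^ (M - m) := by
      rw [← pow_add, Nat.add_sub_cancel' (Nat.lt_succ_iff.1 m.2)]
    rw [h2, div_pow]
    field_simp
  refine ⟨F, ?_, ?_⟩
  · rw [← Finset.card_pos, hF1]
    refine Finset.sum_pos (fun i _ => ?_) ⟨⟨⟨0, by omega⟩, ⟨0, by positivity⟩⟩, Finset.mem_univ _⟩
    exact Finset.card_pos.2 (Finset.Nonempty.pow ⟨1, h1⟩)
  · intro g hg hg'
    have hsub : ∀ m : ℕ, S ^ m ⊆ S ^ (m + 1) := fun m =>
      Finset.pow_subset_pow_right h1 (Nat.le_succ m)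
    have hstep : ∀ m : ℕ, 2 * ((S ^ m).card : ℝ) ≤
        (overlap (S ^ m) g : ℝ) + (overlap (S ^ (m + 1)) g : ℝ) := by
      intro m
      have := two_mul_card_le (hsub m) (g := g)
        (fun f hf => by rw [pow_succ]; exact Finset.mul_mem_mul hf hg)
        (fun f hf => by rw [pow_succ]; exact Finset.mul_mem_mul hf hg')
      exact_mod_cast this
    have hw := weighted (fun m => (overlap (S ^ m) g : ℝ)) (fun m => ((S ^ m).card : ℝ))
      ((p : ℝ) / q) hθ hstep M
    have hO : ∑ m ∈ Finset.range M, ((p : ℝ) / q) ^ m * (overlap (S ^ m) g : ℝ) ≤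
        ∑ m ∈ Finset.range (M + 1), ((p : ℝ) / q) ^ m * (overlap (S ^ m) g : ℝ) := by
      rw [Finset.sum_range_succ]
      have : (0 : ℝ) ≤ ((p : ℝ) / q) ^ M * (overlap (S ^ M) g : ℝ) := by positivity
      linarith
    have hZ : (1 : ℝ) ≤ ∑ m ∈ Finset.range M, ((p : ℝ) / q) ^ m * ((S ^ m).card : ℝ) := by
      have h2 := Finset.single_le_sum (f := fun m => ((p : ℝ) / q) ^ m * ((S ^ m).card : ℝ))
        (s := Finset.range M) (fun m _ => by positivity) (Finset.mem_range.2 (Nat.pos_of_ne_zero hM))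
      simpa using h2
    have hfin : 2 * ∑ m ∈ Finset.range (M + 1), ((p : ℝ) / q) ^ m * ((S ^ m).card : ℝ) <
        3 * ∑ m ∈ Finset.range (M + 1), ((p : ℝ) / q) ^ m * (overlap (S ^ m) g : ℝ) := by
      rw [Finset.sum_range_succ (fun m => ((p : ℝ) / q) ^ m * ((S ^ m).card : ℝ))]
      have h0 : (0 : ℝ) ≤ (overlap (S ^ 0) g : ℝ) := by positivity
      generalize (∑ m ∈ Finset.range M, ((p : ℝ) / q) ^ m * ((S ^ m).card : ℝ)) = Z at *
      generalize (∑ m ∈ Finset.range M, ((p : ℝ) / q) ^ m * (overlap (S ^ m) g : ℝ)) = O at *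
      generalize (∑ m ∈ Finset.range (M + 1), ((p : ℝ) / q) ^ m * (overlap (S ^ m) g : ℝ)) = O'
        at *
      generalize ((p : ℝ) / q) ^ M * ((S ^ M).card : ℝ) = r at *
      generalize (p : ℝ) / q = θ at *
      have e1 : 2 * θ * Z ≤ (1 + θ) * O' := by nlinarith
      have e2 : (1 + θ) * r < (2 * θ - 1) * Z := by nlinarith
      have e3 : (1 + θ) * (2 * (Z + r)) < (1 + θ) * (3 * O') := by nlinarith
      exact lt_of_mul_lt_mul_left e3 (by linarith)
    have hqM : (0 : ℝ) < (q : ℝ) ^ M := pow_pos hq0 _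
    have hfin' := mul_lt_mul_of_pos_left hfin hqM
    have e4 := key fun m => (S ^ m).card
    have e5 := key fun m => overlap (S ^ m) g
    rw [hF1, hF2]
    have e6 : (2 : ℝ) * ((∑ i : (Σ m : Fin (M + 1), Fin (p ^ (m : ℕ) * q ^ (M - m))),
        (S ^ (i.1 : ℕ)).card : ℕ) : ℝ) < 3 *
        ((∑ i : (Σ m : Fin (M + 1), Fin (p ^ (m : ℕ) * q ^ (M - m))),
        overlap (S ^ (i.1 : ℕ)) g : ℕ) : ℝ) := by
      rw [e4, e5]
      linarith
    exact_mod_cast e6

end

/-- The amenable kernel of a product with the integers. -/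
theorem isAmenable_ker_prodMap {Γ Q C : Type} [Group Γ] [Group Q] [Group C] (π : Γ →* Q)
    (h : IsAmenable π.ker) : IsAmenable (π.prodMap (MonoidHom.id C)).ker := by
  let f : π.ker →* (π.prodMap (MonoidHom.id C)).ker :=
    { toFun := fun a => ⟨((a : Γ), 1), by
        rw [MonoidHom.mem_ker]
        exact Prod.ext a.2 rfl⟩
      map_one' := rfl
      map_mul' := fun a b => Subtype.ext (Prod.ext rfl (one_mul _).symm) }
  refine IsAmenable.of_surjective f ?_ h
  rintro ⟨⟨a, b⟩, h⟩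
  rw [MonoidHom.mem_ker] at h
  have h1 : π a = 1 := congrArg Prod.fst h
  have h2 : b = 1 := congrArg Prod.snd h
  subst h2
  exact ⟨⟨a, h1⟩, rfl⟩

/-- **Labels in a set of growth rate less than two, modulo an amenable normal subgroup.** -/
theorem null_of_growth (G : CappedGrope) (Γ Q : Type) [Group Γ] [Group Q] [DecidableEq Q]
    (φ : FundamentalGroup G.Thickening G.basePt →* Γ) (π : Γ →* Q)
    (hπ : Function.Surjective π) (hN : IsAmenable π.ker) (S : Finset Q) (h1 : (1 : Q) ∈ S)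
    (n : ℕ) (hn : (S ^ n).card < 2 ^ n)
    (h : ∀ k p q, π (φ (loop G k p q)) ∈ S ∧ (π (φ (loop G k p q)))⁻¹ ∈ S) : Null G φ := by
  obtain ⟨F, hF, hF'⟩ := exists_set_of_growth S h1 hn
  obtain ⟨D, hD⟩ := null_of_ext G (Γ × Multiplicative ℤ) (Q × Multiplicative ℤ)
    (φ.prod 1) (π.prodMap (MonoidHom.id _))
    (hπ.prodMap Function.surjective_id) (isAmenable_ker_prodMap π hN) F hF fun k p q =>
      hF' _ (h k p q).1 (h k p q).2
  exact ⟨D, fun k c l => congrArg Prod.fst (hD k c l)⟩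

end Vale.Agent.P215.LP
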