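import Vale.Agent.P215.LP.Growth

/-!
# P215: labels `(w i)⁻¹ * w j` for three elements `w 0`, `w 1`, `w 2`
-/

noncomputable section

namespace Vale.Agent.P215.LP

open Vale.Agent.P215.H788 Vale.Agent.P215.Am Vale.Agent.P215.TV Set

/-- Three different pairs, none of which starts with `2`. -/
theorem pairs (f : Fin 3 → Fin 3 × Fin 3) (h1 : ∀ l, (f l).1 ≠ (f l).2)
    (h2 : ∀ l l', l ≠ l' → f l ≠ f l') (h3 : ∀ l, (f l).1 ≠ 2)
    (h4 : ¬ ((∃ l, f l = (0, 1)) ∧ ∃ l, f l = (0, 2))) :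
    (∃ l, f l = (1, 0)) ∧ ∃ l, f l = (1, 2) := by
  have h5 : ∀ l, f l = (0, 1) ∨ f l = (0, 2) ∨ f l = (1, 0) ∨ f l = (1, 2) := by
    intro l
    have a1 := h1 l
    have a3 := h3 l
    revert a1 a3
    generalize f l = q
    revert q
    decide
  have e01 := h2 0 1 (by decide)
  have e02 := h2 0 2 (by decide)
  have e12 := h2 1 2 (by decide)
  rcases h5 0 with a | a | a | a <;> rcases h5 1 with b | b | b | b <;>
    rcases h5 2 with c | c | c | c <;> rw [a, b] at e01 <;> rw [a, c] at e02 <;>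
    rw [b, c] at e12 <;> first
      | exact (e01 rfl).elim
      | exact (e02 rfl).elim
      | exact (e12 rfl).elim
      | exact (h4 ⟨⟨0, a⟩, ⟨1, b⟩⟩).elim
      | exact (h4 ⟨⟨0, a⟩, ⟨2, c⟩⟩).elim
      | exact (h4 ⟨⟨1, b⟩, ⟨0, a⟩⟩).elim
      | exact (h4 ⟨⟨1, b⟩, ⟨2, c⟩⟩).elim
      | exact (h4 ⟨⟨2, c⟩, ⟨0, a⟩⟩).elim
      | exact (h4 ⟨⟨2, c⟩, ⟨1, b⟩⟩).elim
      | exact ⟨⟨0, a⟩, ⟨1, b⟩⟩
      | exact ⟨⟨0, a⟩, ⟨2, c⟩⟩
      | exact ⟨⟨1, b⟩, ⟨0, a⟩⟩
      | exact ⟨⟨1, b⟩, ⟨2, c⟩⟩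
      | exact ⟨⟨2, c⟩, ⟨0, a⟩⟩
      | exact ⟨⟨2, c⟩, ⟨1, b⟩⟩

open Classical in
/-- The rule. -/
def pick (f : Fin 3 → Fin 3 × Fin 3) : Fin 3 :=
  if ∃ l, (f l).1 = 2 then anyOf (fun l => (f l).1 = 2) 0
  else if (∃ l, f l = (0, 1)) ∧ ∃ l, f l = (0, 2) then anyOf (fun l => f l = (0, 1)) 0
  else anyOf (fun l => f l = (1, 0)) 0

theorem pick_cases (f : Fin 3 → Fin 3 × Fin 3) (h1 : ∀ l, (f l).1 ≠ (f l).2)
    (h2 : ∀ l l', l ≠ l' → f l ≠ f l') :
    (f (pick f)).1 = 2 ∨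
    (f (pick f) = (0, 1) ∧ (∃ l, f l = (0, 2)) ∧ ∀ l, (f l).1 ≠ 2) ∨
    (f (pick f) = (1, 0) ∧ (∃ l, f l = (1, 2)) ∧ ∀ l, (f l).1 ≠ 2) := by
  classical
  by_cases h3 : ∃ l, (f l).1 = 2
  · left
    rw [pick, if_pos h3]
    exact anyOf_spec (p := fun l => (f l).1 = 2) h3
  · have h3' : ∀ l, (f l).1 ≠ 2 := fun l h => h3 ⟨l, h⟩
    by_cases h4 : (∃ l, f l = (0, 1)) ∧ ∃ l, f l = (0, 2)
    · right; left
      rw [pick, if_neg h3, if_pos h4]
      exact ⟨anyOf_spec (p := fun l => f l = (0, 1)) h4.1, h4.2, h3'⟩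
    · right; right
      obtain ⟨h5, h6⟩ := pairs f h1 h2 h3' h4
      rw [pick, if_neg h3, if_neg h4]
      exact ⟨anyOf_spec (p := fun l => f l = (1, 0)) h5, h6, h3'⟩

variable {Γ : Type} [Group Γ]

section

variable {T : Types Γ} (P : Port T) (pos : T.K → Fin 3 × Fin 3) (w : Fin 3 → Γ)

/-- The closed walk at a conflict. -/
theorem not_far_of_conflict {P : Port T} (ht : ∀ k, T.t k = (w (pos k).1)⁻¹ * w (pos k).2)
    {x : P.X} {l m m' : Fin 3} (h1 : pos (P.dart x l) = (0, 1)) (h2 : pos (P.dart x m) = (0, 2))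
    (h3 : pos (P.dart (P.nb x l) m') = (1, 2))
    (h4 : pos (P.dart (P.nb x l) (P.bk x l)) = (1, 0)) : ¬ P.Far 3 x := by
  intro h
  have hlm : l ≠ m := by
    rintro rfl
    rw [h1] at h2
    exact absurd h2 (by decide)
  have hm' : m' ≠ P.bk x l := by
    rintro rfl
    rw [h3] at h4
    exact absurd h4 (by decide)
  refine h [m] trivial (by simp) [P.bk x m, l, m'] (List.cons_ne_nil _ _) ?_ (by simp) ?_
  · rw [Port.wEnd_cons, Port.wEnd_nil, Port.red_cons_cons, Port.red_cons_cons, Port.bk_bk,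
      Port.nb_bk]
    exact ⟨hlm, hm', trivial⟩
  · simp only [Port.wEnd_cons, Port.wEnd_nil, Port.wVal_cons, Port.wVal_nil, mul_one, Port.nb_bk,
      Port.lab_bk]
    rw [Port.lab, Port.lab, Port.lab, ht, ht, ht, h1, h2, h3]
    group

theorem exists_pointer_triple {P : Port T}
    (ht : ∀ k, T.t k = (w (pos k).1)⁻¹ * w (pos k).2)
    (hp : ∀ k, pos (T.flip k) = ((pos k).2, (pos k).1)) : ∃ M c, IsPointer P M c := by
  refine ⟨3, fun x => pick fun l => pos (P.dart x l), ?_, ?_⟩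
  · intro x y h
    have h1 : (fun l => pos (P.dart x l)) = fun l => pos (P.dart y l) := by
      funext l
      rw [(h l).1]
    simp only [h1]
  · have key : ∀ {x : P.X}, P.Far 3 x →
        (∀ l, (pos (P.dart x l)).1 ≠ (pos (P.dart x l)).2) ∧
        (∀ l l', l ≠ l' → pos (P.dart x l) ≠ pos (P.dart x l')) := by
      intro x hx
      refine ⟨fun l h => ?_, fun l l' hl h => ?_⟩
      · refine hx.ne_one (by norm_num) l ?_
        rw [ht, h, inv_mul_cancel]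
      · refine hx.ne_of_ne (by norm_num) hl ?_
        rw [ht, ht, h]
    intro x hx hy hc
    dsimp only at hy hc
    obtain ⟨a1, a2⟩ := key hx
    obtain ⟨b1, b2⟩ := key hy
    have hcx := pick_cases (fun l => pos (P.dart x l)) a1 a2
    have hcy := pick_cases _ b1 b2
    rw [hc] at hcy
    generalize (pick fun l => pos (P.dart x l)) = l at *
    have hd : pos (P.dart (P.nb x l) (P.bk x l)) =
        ((pos (P.dart x l)).2, (pos (P.dart x l)).1) := by
      rw [Port.dart_bk, hp]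
    rcases hcx with c1 | ⟨c1, ⟨m, c2⟩, c3⟩ | ⟨c1, ⟨m, c2⟩, c3⟩
    · have e1 := a1 l
      rw [c1] at hd e1
      rcases hcy with d1 | ⟨d1, ⟨m', d2⟩, d3⟩ | ⟨d1, ⟨m', d2⟩, d3⟩
      · rw [hd] at d1
        exact e1 d1.symm
      · rw [hd] at d1
        simp at d1
      · rw [hd] at d1
        simp at d1
    · rw [c1] at hd
      rcases hcy with d1 | ⟨d1, ⟨m', d2⟩, d3⟩ | ⟨d1, ⟨m', d2⟩, d3⟩
      · rw [hd] at d1
        simp at d1
      · rw [hd] at d1
        simp at d1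
      · exact not_far_of_conflict pos w ht c1 c2 d2 d1 hx
    · rw [c1] at hd
      rcases hcy with d1 | ⟨d1, ⟨m', d2⟩, d3⟩ | ⟨d1, ⟨m', d2⟩, d3⟩
      · rw [hd] at d1
        simp at d1
      · refine not_far_of_conflict (x := P.nb x l) pos w ht (l := P.bk x l) (m := m') (m' := m)
          d1 d2 ?_ ?_ hy
        · rw [Port.nb_bk]
          exact c2
        · rw [Port.nb_bk, Port.bk_bk]
          exact c1
      · rw [hd] at d1
        simp at d1

end

variable {G : CappedGrope}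

theorem hasPointers_triple {g : Fin G.plumbings.length → Γ} (w : Fin 3 → Γ)
    (hg : ∀ k, ∃ i j, g k = (w i)⁻¹ * w j) : HasPointers G g := by
  choose a b hab using hg
  intro P _
  refine exists_pointer_triple (fun k : Fin G.plumbings.length × Bool =>
    if k.2 then (a k.1, b k.1) else (b k.1, a k.1)) w ?_ ?_
  · rintro ⟨k, s⟩
    change (lab G g k s)⁻¹ = _
    unfold lab
    cases s
    · simp [hab]
    · simp [hab]
  · rintro ⟨k, s⟩
    cases s <;> rfl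

end Vale.Agent.P215.LP
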