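import Vale.Agent.P215.LP.Comb
import Vale.Agent.P215.LP.Triple
import Vale.Agent.P215.LP.Invol
import Vale.Agent.P215.LP.Mix

/-!
# P215: consequences of the criterion
-/

noncomputable section

namespace Vale.Agent.P215.LP

open Vale.Agent.P215.H788 Vale.Agent.P215.Am Vale.Agent.P215.TV Set
open scoped Pointwise

theorem null_of_growth_set (G : CappedGrope) (Γ Q : Type) [Group Γ] [Group Q]
    (φ : FundamentalGroup G.Thickening G.basePt →* Γ) (π : Γ →* Q)
    (hπ : Function.Surjective π) (hN : IsAmenable π.ker) (S : Set Q) (h1 : (1 : Q) ∈ S)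
    (n : ℕ) (hn : (S ^ n).encard < 2 ^ n)
    (h : ∀ g ∈ values G φ, π g ∈ S ∧ (π g)⁻¹ ∈ S) : Null G φ := by
  classical
  have hn0 : n ≠ 0 := by
    rintro rfl
    rw [pow_zero, pow_zero, ← Set.singleton_one, Set.encard_singleton] at hn
    exact lt_irrefl _ hn
  have hfin : (S ^ n).Finite := by
    rw [← Set.encard_lt_top_iff]
    refine hn.trans ?_
    exact_mod_cast ENat.natCast_lt_top (2 ^ n)
  have hS : S.Finite := by
    refine hfin.subset ?_
    have h2 : S ^ 1 ⊆ S ^ n := Set.pow_subset_pow_right h1 (Nat.one_le_iff_ne_zero.2 hn0)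
    rwa [pow_one] at h2
  lift S to Finset Q using hS
  refine null_of_growth G Γ Q φ π hπ hN S (by exact_mod_cast h1) n ?_ fun k p q => ?_
  · rw [← Finset.coe_pow, Set.encard_coe_eq_coe_finsetCard] at hn
    exact_mod_cast hn
  · have h2 := h _ ⟨k, p, q, rfl⟩
    exact ⟨by exact_mod_cast h2.1, by exact_mod_cast h2.2⟩

variable {G : CappedGrope} {Γ : Type} [Group Γ]
  (φ : FundamentalGroup G.Thickening G.basePt →* Γ)

/-- Labels with pointers. -/
theorem null_of_pointers (h : ∀ g : Fin G.plumbings.length → Γ, (∀ k, g k ∈ values G φ) →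
    HasPointers G g) : Null G φ := by
  obtain ⟨p, q, hpq⟩ := exists_null G
  exact hpq Γ φ (h _ fun k => ⟨k, p k, q k, rfl⟩)

end Vale.Agent.P215.LP
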