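import Vale.Agent.P215.LP.Defs
import Vale.Agent.P215.TV.Any

/-!
# P215: walks back, and the number of walks from a far vertex
-/

noncomputable section

namespace Vale.Agent.P215.Am.Port

variable {Γ : Type} [Group Γ] {T : Types Γ} {P : Port T}

/-- The walk back. -/
def wRev (P : Port T) : P.X → List (Fin 3) → List (Fin 3)
  | _, [] => []
  | x, l :: u => wRev P (P.nb x l) u ++ [P.bk x l]

theorem wEnd_wRev (x : P.X) (u : List (Fin 3)) : P.wEnd (P.wEnd x u) (P.wRev x u) = x := by
  induction u generalizing x with
  | nil => rfl
  | cons l u ih => rw [wRev, wEnd_append, wEnd_cons x, ih, wEnd_cons, wEnd_nil, nb_bk]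

theorem wVal_wRev (x : P.X) (u : List (Fin 3)) :
    P.wVal (P.wEnd x u) (P.wRev x u) = (P.wVal x u)⁻¹ := by
  induction u generalizing x with
  | nil => simp [wRev]
  | cons l u ih =>
    rw [wRev, wVal_append, wEnd_cons, ih, wEnd_wRev, wVal_cons, wVal_nil, mul_one, lab_bk,
      wVal_cons, mul_inv_rev]

theorem length_wRev (x : P.X) (u : List (Fin 3)) : (P.wRev x u).length = u.length := by
  induction u generalizing x with
  | nil => rfl
  | cons l u ih => rw [wRev, List.length_append, ih]; rfl

theorem red_wRev {x : P.X} {u w : List (Fin 3)} (hu : P.Red x u) (hw : P.Red x w)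
    (h : ∀ l ∈ u.head?, ∀ l' ∈ w.head?, l ≠ l') : P.Red (P.wEnd x u) (P.wRev x u ++ w) := by
  induction u generalizing x w with
  | nil => exact hw
  | cons l u ih =>
    rw [wRev, List.append_assoc]
    refine ih hu.tail ?_ ?_
    · cases w with
      | nil => trivial
      | cons l' w =>
        refine ⟨?_, ?_⟩
        · rw [bk_bk]
          exact (h l (by simp) l' (by simp)).symm
        · rw [nb_bk]
          exact hw
    · intro m hm m' hm'
      simp only [List.cons_append, List.nil_append, List.head?_cons, Option.mem_def,
        Option.some.injEq] at hm'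
      subst hm'
      cases u with
      | nil => simp at hm
      | cons m'' u =>
        simp only [List.head?_cons, Option.mem_def, Option.some.injEq] at hm
        subst hm
        exact hu.1

/-- The neighbours of far vertices are far. -/
theorem Far.nb {M : ℕ} {x : P.X} (h : P.Far (M + 1) x) (l : Fin 3) : P.Far M (P.nb x l) := by
  intro u hu hul w hw hr hwl
  cases u with
  | nil => exact h [l] trivial (by simp) w hw hr (by omega)
  | cons m u =>
    by_cases hm : m = P.bk x l
    · subst hm
      have h1 := hu.tail
      rw [nb_bk] at h1
      rw [wEnd_cons, nb_bk] at hr ⊢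
      exact h u h1 (by simp at hul; omega) w hw hr (by omega)
    · exact h (l :: m :: u) ⟨hm, hu⟩ (by simp at hul ⊢; omega) w hw hr (by omega)

/-- Reduced walks of length `n` from a far vertex have different values. -/
theorem Far.wVal_inj {n M : ℕ} (hM : 2 * n ≤ M) {x : P.X} (h : P.Far M x) {u u' : List (Fin 3)}
    (hu : P.Red x u) (hu' : P.Red x u') (hl : u.length = n) (hl' : u'.length = n)
    (he : P.wVal x u = P.wVal x u') : u = u' := by
  induction n generalizing x u u' M with
  | zero =>
    rw [List.length_eq_zero_iff] at hl hl'
    rw [hl, hl']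
  | succ n ih =>
    cases u with
    | nil => simp at hl
    | cons l v =>
      cases u' with
      | nil => simp at hl'
      | cons l' v' =>
        by_cases hll : l = l'
        · subst hll
          simp only [wVal_cons, mul_right_inj] at he
          have hM' : M = M - 1 + 1 := by omega
          rw [hM'] at h
          rw [ih (M := M - 1) (by omega) (h.nb l) hu.tail hu'.tail (by simpa using hl)
            (by simpa using hl') he]
        · exfalso
          refine h (l :: v) hu (by omega) (P.wRev x (l :: v) ++ (l' :: v')) ?_
            (red_wRev hu hu' ?_) ?_ ?_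
          · simp
          · simp only [List.head?_cons, Option.mem_def, Option.some.injEq]
            rintro _ rfl _ rfl
            exact hll
          · rw [List.length_append, length_wRev]
            omega
          · rw [wVal_append, wEnd_wRev, wVal_wRev, he, inv_mul_cancel]

/-- One of the two other legs. -/
def oth (l : Fin 3) (b : Bool) : Fin 3 := if b then l + 1 else l + 2

theorem oth_ne (l : Fin 3) (b : Bool) : oth l b ≠ l := by
  revert l b
  decide

theorem oth_inj {l : Fin 3} {b b' : Bool} (h : oth l b = oth l b') : b = b' := by
  revert l b b'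
  decide

/-- The reduced walk with the first leg `l` and given turns. -/
def turns (P : Port T) : P.X → Fin 3 → List Bool → List (Fin 3)
  | _, l, [] => [l]
  | x, l, b :: bs => l :: turns P (P.nb x l) (oth (P.bk x l) b) bs

theorem turns_cons (x : P.X) (l : Fin 3) (bs : List Bool) :
    ∃ r, P.turns x l bs = l :: r := by
  cases bs with
  | nil => exact ⟨_, rfl⟩
  | cons b bs => exact ⟨_, rfl⟩

theorem red_turns (x : P.X) (l : Fin 3) (bs : List Bool) : P.Red x (P.turns x l bs) := by
  induction bs generalizing x l with
  | nil => trivial
  | cons b bs ih =>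
    have h := ih (P.nb x l) (oth (P.bk x l) b)
    obtain ⟨r, hr⟩ := turns_cons (P := P) (P.nb x l) (oth (P.bk x l) b) bs
    rw [turns, hr]
    rw [hr] at h
    exact ⟨oth_ne _ _, h⟩

theorem length_turns (x : P.X) (l : Fin 3) (bs : List Bool) :
    (P.turns x l bs).length = bs.length + 1 := by
  induction bs generalizing x l with
  | nil => rfl
  | cons b bs ih => rw [turns, List.length_cons, ih, List.length_cons]

theorem turns_inj {x : P.X} {l l' : Fin 3} {bs bs' : List Bool} (hl : bs.length = bs'.length)
    (h : P.turns x l bs = P.turns x l' bs') : l = l' ∧ bs = bs' := by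
  induction bs generalizing x l l' bs' with
  | nil =>
    cases bs' with
    | nil =>
      simp only [turns, List.cons.injEq, and_true] at h
      exact ⟨h, rfl⟩
    | cons b' bs' => simp at hl
  | cons b bs ih =>
    cases bs' with
    | nil => simp at hl
    | cons b' bs' =>
      rw [turns, turns, List.cons.injEq] at h
      obtain ⟨rfl, h⟩ := h
      obtain ⟨h1, h2⟩ := ih (by simpa using hl) h
      exact ⟨rfl, by rw [oth_inj h1, h2]⟩

end Vale.Agent.P215.Am.Port
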